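import Vale.Agent.P216.C313.Low
import Vale.Agent.P216.C337.Tw
import Vale.Agent.P216.H456C.CellSp
import Vale.Agent.P216.H250.Pi0P

/-!
# P216-C, block C04 (LOW): the final statement

`lowC`: for a compact simply connected space with unique short segments and a decomposition into
handles of the indices `d j`, `LowC M (d - 1) B` for some `B`.
-/

set_option linter.all false

open Set BoundedContinuousFunction

namespace Vale.Agent.P216.C313

open Vale.Agent.P216.H901 Vale.Agent.P216.H456 Vale.Agent.P216.H456C Vale.Agent.P216.MV337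
open Vale.Agent.P216.H133C Vale.Agent.P216.PS Vale.Agent.P216.C337
open Vale.Agent.P216.Sl (IsPi)

variable {M : Type} [MetricSpace M] [CompactSpace M] {d h : ℕ}

/-- The constant of `PI0`. -/
theorem exists_isPi [SimplyConnectedSpace M] {ρ : ℝ} (hρ : 0 < ρ) (hU : LS.UniqSeg M ρ) :
    ∃ D, IsPi M D := by
  obtain ⟨D, h0, h1, h2⟩ := H250.pi0 hρ hU
  exact ⟨D, h0, h1, h2⟩

omit [CompactSpace M] in
/-- Moving the end point of tracks. -/
theorem tr_to {D : Set M} {x₀ a : M} {ℓ m : ℝ} {T : M → ℝ → M} (h : Tr D x₀ ℓ T) (hm : 0 ≤ m)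
    {v : ℝ →ᵇ M} (hv : v ∈ P x₀ a m) : Tr D a (ℓ + m) (fun y => catf ℓ (T y) v) := by
  have h1 : TrY D id (fun _ => x₀) ℓ T := ⟨h.nonneg, h.lip, h.left, h.right, h.cont⟩
  have h2 : TrY D (fun _ => x₀) (fun _ => a) m (fun _ => v) :=
    ⟨hm, fun _ _ => hv.1, fun _ _ => hv.2.1, fun _ _ => hv.2.2,
      (v.continuous.comp continuous_snd).continuousOn⟩
  have h3 := h1.trans h2
  exact ⟨h3.nonneg, h3.lip, h3.left, h3.right, h3.cont⟩

/-- Tracks of the same time over all handles, to all end points. -/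
theorem exists_trAll [PathConnectedSpace M] (C : CellDec M d h) {ρ D : ℝ} (hρ : 0 < ρ)
    (hU : LS.UniqSeg M ρ) (hD : IsPi M D) :
    ∃ ℓ, 0 ≤ ℓ ∧ ∀ (a : M) (j : ℕ), j ≤ h → ∃ T, Tr (C.D j) a ℓ T := by
  obtain ⟨x₀⟩ : Nonempty M := inferInstance
  obtain ⟨ℓ, h0, hT⟩ := exists_trD C x₀ hρ hU
  refine ⟨ℓ + D, add_nonneg h0 hD.nonneg, fun a j hj => ?_⟩
  obtain ⟨T, hT⟩ := hT j hj
  obtain ⟨v, hv⟩ := hD.ne x₀ a
  exact ⟨_, tr_to hT hD.nonneg hv⟩

/-- The trivialisations over all handles. -/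
theorem exists_trivC [PathConnectedSpace M] (C : CellDec M d h) {ρ D : ℝ} (hρ : 0 < ρ)
    (hU : LS.UniqSeg M ρ) (hD : IsPi M D) :
    ∃ c, 0 ≤ c ∧ ∀ (a b : M) (j : ℕ), j ≤ h → Nonempty (TrivC C a b c j) := by
  obtain ⟨ℓ, h0, hT⟩ := exists_trAll C hρ hU hD
  refine ⟨ℓ, h0, fun a b j hj => ?_⟩
  obtain ⟨T, hT⟩ := hT a j hj
  exact ⟨cellPF b (C.cellL hj) (C.closed j) inter_subset_left hT⟩

/-- **LOW.** -/
theorem lowC [SimplyConnectedSpace M] (C : CellDec M d h) (hd : 1 ≤ d) {ρ : ℝ} (hρ : 0 < ρ)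
    (hU : LS.UniqSeg M ρ) : ∃ B, 0 ≤ B ∧ LowC M (d - 1) B := by
  obtain ⟨D, hD⟩ := exists_isPi hρ hU
  obtain ⟨c, hc, S⟩ := exists_trivC C hρ hU hD
  have hD0 := hD.nonneg
  exact ⟨_, by positivity, lowC_of C hd hc hD S⟩

end Vale.Agent.P216.C313
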