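import Vale.Agent.P216.H799.W3
import Vale.Agent.P216.MV337.Sys
import Vale.Agent.P216.H133C.Cell

/-!
# P216-C: the relative cohomology of the handles (any field)

`cellE : H^(r+n)(D, S; k) ≃ H^r(point; k)` for a cell `(D, S) ≃ (I^n, ∂I^n)`;
`cell_zero`: `H^q(D, S; k) = 0` for `q ≠ n`; `cell_line`, `cell_ne`: `H^n(D, S; k)` is a line;
`cellRel_zero`, `cellRel_line`: the same for `(L (j + 1), L j)`, `n = d * j`, in a handle
decomposition of a compact metric space.
-/

set_option linter.all false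

open Set Matrix

namespace Vale.Agent.P216.C313

open Vale.Agent.P216.AS Vale.Agent.P216.H901 Vale.Agent.P216.H133C Vale.Agent.P216.MV337

/-! ### The point -/

theorem pt_succ {k : Type} [Field k] (q : ℕ)
    (x : Hr (tr Unit) (on k) (univ : Set Unit) ∅ (q + 1)) : x = 0 := by
  obtain ⟨f, hf, rfl⟩ := H.exists_mk x
  rw [H.mk_eq_zero, mem_Bc_succ]
  obtain ⟨-, -, ε, hε, h⟩ := mem_Zc_rel.1 hf
  refine ⟨fun y => f (vecCons () y), ⟨fun i => i.elim, 1, one_pos, fun y hy => ?_⟩,
    fun i => i.elim, 1, one_pos, fun y _ => ?_⟩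
  · exact absurd (hy.1 0) (notMem_empty _)
  · change f y - P265.AS.d (fun y => f (vecCons () y)) y = 0
    rw [← P265.AS.d_cons]
    exact h _ ⟨fun _ => trivial, fun i j => by
      rw [Subsingleton.elim (vecCons () y i) (vecCons () y j), dist_self]; exact hε⟩

/-- The class `1` of the point. -/
theorem one_mem (k : Type) [Field k] : (fun _ => 1 : (Fin 1 → Unit) → k) ∈
    Zc (Zr (tr Unit) (on k) (univ : Set Unit) ∅) (Zr (tr Unit) (on k) univ univ) 0 := by
  rw [mem_Zc_rel]
  refine ⟨fun i => i.elim, ⟨1, one_pos, fun y hy => absurd (hy.1 0) (notMem_empty _)⟩,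
    1, one_pos, fun y _ => ?_⟩
  rw [P265.AS.d_succ_apply, P265.AS.d_zero_apply]
  simp

/-- The class `1` of the point. -/
noncomputable def pt1 (k : Type) [Field k] : Hr (tr Unit) (on k) (univ : Set Unit) ∅ 0 :=
  H.mk _ (one_mem k)

theorem pt1_ne (k : Type) [Field k] : pt1 k ≠ 0 := by
  intro h
  rw [pt1, H.mk_eq_zero, mem_Bc_zero] at h
  obtain ⟨-, ε, hε, h⟩ := h
  have := h (fun _ => ()) ⟨fun _ => trivial, fun i j => by rw [dist_self]; exact hε⟩
  exact one_ne_zero this

theorem pt_line {k : Type} [Field k] (x : Hr (tr Unit) (on k) (univ : Set Unit) ∅ 0) :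
    ∃ a : k, x = a • pt1 k := by
  obtain ⟨f, hf, rfl⟩ := H.exists_mk x
  refine ⟨f fun _ => (), ?_⟩
  rw [pt1, ← H.mk_smul, H.mk_eq_mk, mem_Bc_zero]
  refine ⟨fun i => i.elim, 1, one_pos, fun y _ => ?_⟩
  rw [Subsingleton.elim y fun _ => ()]
  change f (fun _ => ()) - f (fun _ => ()) * 1 = 0
  rw [mul_one, sub_self]

/-! ### Cells -/

section Cell

variable {M : Type} [MetricSpace M] {n : ℕ} {D S : Set M} (C : Cell M n D S)

/-- The map from the cell to the cube. -/
def cf (x : M) : Cu Unit n := enc n () (C.φ x)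

/-- The map from the cube to the cell. -/
def cg (z : Cu Unit n) : M := C.ψ (dec2 n z)

theorem cf_map (hD : IsCompact D) :
    IsMap (tr M) (tr (Cu Unit n)) D (cub n (univ : Set Unit)) (cf C) :=
  map_of_cont hD (enc_cont n continuousOn_const C.φ_cont) fun x hx => by
    rw [mem_cub, cf, dec1_enc, dec2_enc]
    exact ⟨trivial, C.φ_mem x hx⟩

theorem cg_map : IsMap (tr (Cu Unit n)) (tr M) (cub n (univ : Set Unit)) D (cg C) :=
  map_of_cont (isCompact_cub n isCompact_univ) (C.ψ_cont.comp (dec2_cont n).continuousOn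
    fun z hz => ((mem_cub n).1 hz).2) fun z hz => C.ψ_mem _ ((mem_cub n).1 hz).2

theorem cf_bd (hS : S ⊆ D) : MapsTo (cf C) S (bdc n (univ : Set Unit)) := fun x hx => by
  rw [mem_bdc, mem_cub, cf, dec1_enc, dec2_enc]
  exact ⟨⟨trivial, C.φ_mem x (hS hx)⟩, C.φ_bd x hx⟩

theorem cg_bd : MapsTo (cg C) (bdc n (univ : Set Unit)) S := fun z hz => by
  obtain ⟨h1, h2⟩ := (mem_bdc n).1 hz
  exact C.ψ_bd _ ((mem_cub n).1 h1).2 h2

theorem cf_cg (z : Cu Unit n) (hz : z ∈ cub n (univ : Set Unit)) : cf C (cg C z) = z := by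
  rw [cf, cg, C.φψ _ ((mem_cub n).1 hz).2]
  exact enc_dec n z

theorem bd_sub (n : ℕ) : bdc n (univ : Set Unit) ⊆ cub n univ := fun z hz => ((mem_bdc n).1 hz).1

theorem pull_bijective (k : Type) [Field k] (hD : IsCompact D) (hS : S ⊆ D) (q : ℕ) :
    Function.Bijective (pullR (on k) (cg_map C) (bdc_subset n univ) (cg_bd C) q :
      Hr (tr M) (on k) D S q →ₗ[k] Hr (tr (Cu Unit n)) (on k) (cub n univ) (bdc n univ) q) := by
  have e1 : ∀ x : Hr (tr M) (on k) D S q, pullR (on k) (cf_map C hD) hS (cf_bd C hS) q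
      (pullR (on k) (cg_map C) (bdc_subset n univ) (cg_bd C) q x) = x := by
    intro x
    rw [← pullR_comp (cg_map C) (cf_map C hD) hS (bdc_subset n univ) (cf_bd C hS) (cg_bd C)]
    have hp : Hp D S D S id (cg C ∘ cf C) := by
      refine hp_of_cont hD (F := fun p => C.K (p.2, p.1)) ?_ ?_ ?_ ?_ ?_
      · exact C.K_cont.comp (continuous_snd.prodMk continuous_fst).continuousOn
          fun p hp => ⟨hp.2, hp.1⟩
      · exact fun s hs x hx => C.K_mem x hx s hs
      · exact fun s hs x hx => C.K_bd x hx s hs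
      · exact fun x hx => C.K_zero x hx
      · intro x hx
        show C.K (x, 1) = C.ψ (dec2 n (enc n () (C.φ x)))
        rw [dec2_enc, C.K_one x hx]
    rw [← hp.pullR_eq hS (IsMap.id_of_subset le_rfl) (fun x hx => hx)
      ((cg_map C).comp (cf_map C hD)) ((cg_bd C).comp (cf_bd C hS)) q]
    have := pullR_eq_resR (k := k) (χ := on k) (n := q) (a := tr M) (X := D) (A := S) (Y := D)
      (B := S) le_rfl le_rfl hS (IsMap.id_of_subset le_rfl) (fun x hx => hx) (r := id)
      (fun x _ => rfl)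
    rw [this]
    exact Hinc_refl _ _ x
  have e2 : ∀ x : Hr (tr (Cu Unit n)) (on k) (cub n univ) (bdc n univ) q,
      pullR (on k) (cg_map C) (bdc_subset n univ) (cg_bd C) q
        (pullR (on k) (cf_map C hD) hS (cf_bd C hS) q x) = x := by
    intro x
    rw [← pullR_comp (cf_map C hD) (cg_map C) (bdc_subset n univ) hS (cg_bd C) (cf_bd C hS)]
    rw [pullR_eq_resR (k := k) (χ := on k) le_rfl le_rfl (bdc_subset n univ)
      ((cf_map C hD).comp (cg_map C)) ((cf_bd C hS).comp (cg_bd C)) fun z hz => cf_cg C z hz]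
    exact Hinc_refl _ _ x
  exact ⟨fun x y hxy => by rw [← e1 x, ← e1 y, hxy], fun x => ⟨_, e2 x⟩⟩

/-- **The cohomology of a cell.** -/
noncomputable def cellE (k : Type) [Field k] (hD : IsCompact D) (hS : S ⊆ D) (r : ℕ) :
    Hr (tr M) (on k) D S (r + n) ≃ₗ[k] Hr (tr Unit) (on k) (univ : Set Unit) ∅ r :=
  (LinearEquiv.ofBijective _ (pull_bijective C k hD hS (r + n))).trans (H799.susN k univ r n)

include C in
theorem cell_zero {k : Type} [Field k] (hD : IsCompact D) (hS : S ⊆ D) {q : ℕ} (hq : q ≠ n)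
    (x : Hr (tr M) (on k) D S q) : x = 0 := by
  rcases Nat.lt_or_gt_of_ne hq with h | h
  · apply (pull_bijective C k hD hS q).1
    rw [map_zero]
    exact H799.cub_low k univ n q h _
  · obtain ⟨r, rfl⟩ : ∃ r, q = r + 1 + n := ⟨q - n - 1, by omega⟩
    apply (cellE C k hD hS (r + 1)).injective
    rw [map_zero]
    exact pt_succ r _

/-- The generator. -/
noncomputable def cellG (k : Type) [Field k] (hD : IsCompact D) (hS : S ⊆ D) :
    Hr (tr M) (on k) D S (0 + n) := (cellE C k hD hS 0).symm (pt1 k)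

theorem cellG_ne (k : Type) [Field k] (hD : IsCompact D) (hS : S ⊆ D) : cellG C k hD hS ≠ 0 := by
  intro h
  have := congrArg (cellE C k hD hS 0) h
  rw [cellG, LinearEquiv.apply_symm_apply, map_zero] at this
  exact pt1_ne k this

theorem cell_line' {k : Type} [Field k] (hD : IsCompact D) (hS : S ⊆ D)
    (x : Hr (tr M) (on k) D S (0 + n)) : ∃ a : k, x = a • cellG C k hD hS := by
  obtain ⟨a, ha⟩ := pt_line (cellE C k hD hS 0 x)
  refine ⟨a, ?_⟩
  apply (cellE C k hD hS 0).injective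
  rw [map_smul, cellG, LinearEquiv.apply_symm_apply]
  exact ha

include C in
/-- `H^n(D, S; k)` is a line. -/
theorem cell_line (k : Type) [Field k] (hD : IsCompact D) (hS : S ⊆ D) :
    ∃ g : Hr (tr M) (on k) D S n, g ≠ 0 ∧ ∀ x, ∃ a : k, x = a • g := by
  have e : 0 + n = n := zero_add n
  have := (⟨cellG C k hD hS, cellG_ne C k hD hS, cell_line' C hD hS⟩ :
    ∃ g : Hr (tr M) (on k) D S (0 + n), g ≠ 0 ∧ ∀ x, ∃ a : k, x = a • g)
  rwa [e] at this

end Cell

/-! ### Handle decompositions -/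

section Dec

variable {M : Type} [MetricSpace M] [CompactSpace M] {d h : ℕ} (C : CellDec M d h)

theorem exc_cell (k : Type) [Field k] (j : ℕ) (q : ℕ) :
    Function.Bijective (resR (by rw [C.L_succ]; exact subset_union_right)
      inter_subset_right q :
      Hr (tr M) (on k) (C.L (j + 1)) (C.L j) q →ₗ[k] Hr (tr M) (on k) (C.D j) (C.D j ∩ C.L j) q) :=
  H799.strong_excision (C.isClosed_L j).isCompact (C.closed j).isCompact (C.L_succ j)
    (inter_comm _ _) _ _ q

/-- **The relative cohomology of `(L (j + 1), L j)`.** -/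
theorem cellRel_zero {k : Type} [Field k] {j q : ℕ} (hj : j ≤ h) (hq : q ≠ d * j)
    (x : Hr (tr M) (on k) (C.L (j + 1)) (C.L j) q) : x = 0 := by
  apply (exc_cell C k j q).1
  rw [map_zero]
  exact cell_zero (C.cellL hj) (C.closed j).isCompact inter_subset_left hq _

theorem cellRel_line (k : Type) [Field k] {j : ℕ} (hj : j ≤ h) :
    ∃ g : Hr (tr M) (on k) (C.L (j + 1)) (C.L j) (d * j), g ≠ 0 ∧ ∀ x, ∃ a : k, x = a • g := by
  obtain ⟨g, hg, hl⟩ := cell_line (C.cellL hj) k (C.closed j).isCompact inter_subset_left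
  obtain ⟨g', rfl⟩ := (exc_cell C k j (d * j)).2 g
  refine ⟨g', fun h0 => hg (by rw [h0, map_zero]), fun x => ?_⟩
  obtain ⟨a, ha⟩ := hl (resR _ _ _ x)
  refine ⟨a, (exc_cell C k j (d * j)).1 ?_⟩
  rw [map_smul]
  exact ha

end Dec

end Vale.Agent.P216.C313
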