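import Vale.Agent.P216.MV337.Conj
import Vale.Agent.P216.B64.Contract
import Vale.Agent.P216.H901.Sp

/-!
# P216-C (note 12516): path and loop spaces over a parameter space

`f : Y → M`.
* `XY f t L`: pairs `(y, w)`, `y ∈ L`, `w` a free Moore loop of duration `≤ t` at `f y`;
* `EY f b t L`: pairs `(y, w)`, `y ∈ L`, `w` a Moore path of duration `≤ t` from `f y` to `b`.
-/

open Set Topology BoundedContinuousFunction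

namespace Vale.Agent.P216.C313

open MV337 PS

variable {Y M : Type} [MetricSpace M]

/-- Free Moore loops over `L ⊆ Y`. -/
def XY (f : Y → M) (t : ℝ) (L : Set Y) : Set (Y × (ℝ →ᵇ M)) :=
  {q | q.1 ∈ L ∧ q.2 ∈ FL M t ∧ q.2 0 = f q.1}

/-- Moore paths to `b` over `L ⊆ Y`. -/
def EY (f : Y → M) (b : M) (t : ℝ) (L : Set Y) : Set (Y × (ℝ →ᵇ M)) :=
  {q | q.1 ∈ L ∧ q.2 ∈ P (f q.1) b t}

variable {f : Y → M} {b : M} {s t : ℝ} {L L' : Set Y}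

theorem mem_XY {q : Y × (ℝ →ᵇ M)} : q ∈ XY f t L ↔ q.1 ∈ L ∧ q.2 ∈ FL M t ∧ q.2 0 = f q.1 :=
  Iff.rfl

theorem mem_EY {q : Y × (ℝ →ᵇ M)} : q ∈ EY f b t L ↔ q.1 ∈ L ∧ q.2 ∈ P (f q.1) b t := Iff.rfl

theorem XY_mono (h : s ≤ t) (h' : L ⊆ L') : XY f s L ⊆ XY f t L' :=
  fun _ hq => ⟨h' hq.1, FL_mono h hq.2.1, hq.2.2⟩

theorem EY_mono (h : s ≤ t) (h' : L ⊆ L') : EY f b s L ⊆ EY f b t L' :=
  fun _ hq => ⟨h' hq.1, P_mono h hq.2⟩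

theorem XY_union : XY f t (L ∪ L') = XY f t L ∪ XY f t L' := by
  ext q
  exact ⟨fun h => h.1.elim (fun h1 => Or.inl ⟨h1, h.2⟩) fun h1 => Or.inr ⟨h1, h.2⟩,
    fun h => h.elim (fun h => ⟨Or.inl h.1, h.2⟩) fun h => ⟨Or.inr h.1, h.2⟩⟩

theorem XY_inter : XY f t (L ∩ L') = XY f t L ∩ XY f t L' := by
  ext q
  exact ⟨fun h => ⟨⟨h.1.1, h.2⟩, ⟨h.1.2, h.2⟩⟩, fun h => ⟨⟨h.1.1, h.2.1⟩, h.1.2⟩⟩

theorem EY_union : EY f b t (L ∪ L') = EY f b t L ∪ EY f b t L' := by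
  ext q
  exact ⟨fun h => h.1.elim (fun h1 => Or.inl ⟨h1, h.2⟩) fun h1 => Or.inr ⟨h1, h.2⟩,
    fun h => h.elim (fun h => ⟨Or.inl h.1, h.2⟩) fun h => ⟨Or.inr h.1, h.2⟩⟩

theorem EY_inter : EY f b t (L ∩ L') = EY f b t L ∩ EY f b t L' := by
  ext q
  exact ⟨fun h => ⟨⟨h.1.1, h.2⟩, ⟨h.1.2, h.2⟩⟩, fun h => ⟨⟨h.1.1, h.2.1⟩, h.1.2⟩⟩

end Vale.Agent.P216.C313
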