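import Vale.Agent.P216.H892.LinFive
import Vale.Agent.P216.H83.Les

/-!
# P216-C, block C04 (LOW): modules of rank one up to a shift; triples

* `PM.Dep B`: any two classes become linearly dependent after the restriction by `B`.
* `Ex3`: natural sequences exact in the middle; `Ex3.eph`, `Ex3.dep_left`, `Ex3.dep_right`.
* `tri_ex`: the exact sequence of a triple (exactness in the middle).
-/

set_option linter.all false

open Set

namespace Vale.Agent.P216.H901

variable {k : Type} [Field k]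

namespace PM

/-- Any two classes become linearly dependent. -/
def Dep (A : PM k) (B : ℝ) : Prop :=
  ∀ s t (hs : 0 < s) (h : s ≤ t), s + B ≤ t → ∀ x y : A.V t,
    ∃ a b : k, (a ≠ 0 ∨ b ≠ 0) ∧ A.ρ s t hs h (a • x + b • y) = 0

variable {A B : PM k} {C C' c : ℝ}

theorem Eph.mono (h : A.Eph C) (hC : C ≤ C') : A.Eph C' :=
  fun s t hs hst h1 => h s t hs hst (by linarith)

theorem Dep.mono (h : A.Dep C) (hC : C ≤ C') : A.Dep C' :=
  fun s t hs hst h1 => h s t hs hst (by linarith)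

theorem Eph.dep (h : A.Eph C) : A.Dep C := fun s t hs hst h1 x y =>
  ⟨1, 0, Or.inl one_ne_zero, h s t hs hst h1 _⟩

theorem dep_of_zero (h : ∀ t, 0 < t → ∀ x : A.V t, x = 0) : A.Eph C :=
  fun s t hs hst h1 x => h s hs _

theorem Hom.Inj.dep {φ : Hom A B} (h : φ.Inj c) (hB : B.Dep C) (hc : 0 ≤ c) (hC : 0 ≤ C) :
    A.Dep (c + C) := by
  intro s t hs hst h1 x y
  have ht : 0 < t := hs.trans_le hst
  have p1 : 0 < s + c := by linarith
  obtain ⟨a, b, hab, e⟩ := hB (s + c) t p1 (by linarith) (by linarith) (φ.f t ht x) (φ.f t ht y)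
  refine ⟨a, b, hab, ?_⟩
  rw [← map_smul, ← map_smul, ← map_add, φ.nat _ _ p1 ht] at e
  have e2 := h s (s + c) hs p1 (by linarith) le_rfl _ e
  rwa [A.ρ_comp _ _ _ _ _ _ _ hst] at e2

end PM

theorem Retr.dep {A B : PM k} {c C : ℝ} (i : Retr A B c) (hc : 0 ≤ c) (hC : 0 ≤ C)
    (h : B.Dep C) : A.Dep (C + 2 * c) := by
  intro s t hs hst h1 x y
  have ht : 0 < t := hs.trans_le hst
  have p1 : 0 < s + c := by linarith
  have p2 : 0 < s + c + C := by linarith
  obtain ⟨a, b, hab, e⟩ := h (s + c) (s + c + C) p1 (by linarith) le_rfl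
    (i.f (s + c + C) t p2 (by linarith) x) (i.f (s + c + C) t p2 (by linarith) y)
  refine ⟨a, b, hab, ?_⟩
  rw [← map_smul, ← map_smul, ← map_add, i.f_left p2 p1 _ _ (by linarith) _ ht] at e
  rw [← i.gf s (s + c) t hs p1 le_rfl (by linarith) hst, e, map_zero]

theorem Retr.eph {A B : PM k} {c C : ℝ} (i : Retr A B c) (hc : 0 ≤ c) (hC : 0 ≤ C)
    (h : B.Eph C) : A.Eph (C + 2 * c) := by
  intro s t hs hst h1 x
  have ht : 0 < t := hs.trans_le hst
  have p1 : 0 < s + c := by linarith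
  have p2 : 0 < s + c + C := by linarith
  have e := h (s + c) (s + c + C) p1 (by linarith) le_rfl (i.f (s + c + C) t p2 (by linarith) x)
  rw [i.f_left p2 p1 _ _ (by linarith) _ ht] at e
  rw [← i.gf s (s + c) t hs p1 le_rfl (by linarith) hst, e, map_zero]

/-- Sequences `P → X → Q` exact in the middle. -/
structure Ex3 (P X Q : PM k) where
  α : ∀ t, 0 < t → P.V t →ₗ[k] X.V t
  β : ∀ t, 0 < t → X.V t →ₗ[k] Q.V t
  α_nat : ∀ s t hs ht (h : s ≤ t) x, X.ρ s t hs h (α t ht x) = α s hs (P.ρ s t hs h x)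
  β_nat : ∀ s t hs ht (h : s ≤ t) x, Q.ρ s t hs h (β t ht x) = β s hs (X.ρ s t hs h x)
  ex : ∀ t ht, Function.Exact (α t ht) (β t ht)

namespace Ex3

variable {P X Q : PM k} (e : Ex3 P X Q) {a b : ℝ}

include e

theorem eph (ha : 0 ≤ a) (hb : 0 ≤ b) (hP : P.Eph a) (hQ : Q.Eph b) : X.Eph (a + b) := by
  intro s t hs hst h1 x
  have ht : 0 < t := hs.trans_le hst
  have p1 : 0 < s + a := by linarith
  have e1 : e.β (s + a) p1 (X.ρ (s + a) t p1 (by linarith) x) = 0 := by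
    rw [← e.β_nat _ _ _ ht]
    exact hQ _ _ _ _ (by linarith) _
  obtain ⟨p, hp⟩ := (e.ex _ p1 _).1 e1
  rw [← X.ρ_comp s (s + a) t hs p1 (by linarith) (by linarith) hst, ← hp, e.α_nat _ _ hs p1,
    hP s (s + a) hs _ le_rfl, map_zero]

theorem dep_right (ha : 0 ≤ a) (hb : 0 ≤ b) (hP : P.Eph a) (hQ : Q.Dep b) : X.Dep (a + b) := by
  intro s t hs hst h1 x y
  have ht : 0 < t := hs.trans_le hst
  have p1 : 0 < s + a := by linarith
  obtain ⟨u, v, huv, e0⟩ := hQ (s + a) t p1 (by linarith) (by linarith) (e.β t ht x) (e.β t ht y)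
  refine ⟨u, v, huv, ?_⟩
  have e1 : e.β (s + a) p1 (X.ρ (s + a) t p1 (by linarith) (u • x + v • y)) = 0 := by
    rw [← e.β_nat _ _ _ ht, map_add, map_smul, map_smul]
    exact e0
  obtain ⟨p, hp⟩ := (e.ex _ p1 _).1 e1
  rw [← X.ρ_comp s (s + a) t hs p1 (by linarith) (by linarith) hst, ← hp, e.α_nat _ _ hs p1,
    hP s (s + a) hs _ le_rfl, map_zero]

theorem dep_left (ha : 0 ≤ a) (hb : 0 ≤ b) (hP : P.Dep a) (hQ : Q.Eph b) : X.Dep (a + b) := by
  intro s t hs hst h1 x y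
  have ht : 0 < t := hs.trans_le hst
  have p1 : 0 < s + a := by linarith
  have key : ∀ z : X.V t, ∃ p, e.α (s + a) p1 p = X.ρ (s + a) t p1 (by linarith) z := by
    intro z
    refine (e.ex _ p1 _).1 ?_
    rw [← e.β_nat _ _ _ ht]
    exact hQ _ _ _ _ (by linarith) _
  obtain ⟨p, hp⟩ := key x
  obtain ⟨p', hp'⟩ := key y
  obtain ⟨u, v, huv, e0⟩ := hP s (s + a) hs (by linarith) le_rfl p p'
  refine ⟨u, v, huv, ?_⟩
  rw [← X.ρ_comp s (s + a) t hs p1 (by linarith) (by linarith) hst, map_add, map_smul, map_smul,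
    ← hp, ← hp', ← map_smul, ← map_smul, ← map_add, e.α_nat _ _ hs p1, e0, map_zero]

end Ex3

end Vale.Agent.P216.H901

namespace Vale.Agent.P216.C313

open Vale.Agent.P216.AS Vale.Agent.P216.H901 Vale.Agent.P216.H83

section Tri

variable {E : Type} [PseudoMetricSpace E] (k : Type) [Field k]

/-- The change of world, relative version. -/
noncomputable def worldR (X A B : Set E) (q : ℕ) :
    H (Zr (tr E) (on k) X B) (Zr (tr E) (on k) X A) q ≃ₗ[k] Hr (tr E) (on k) A B q :=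
  LinearEquiv.ofLinear (Hinc (zr_le X A B) (zr_le X A A) q) (Hinc (zr_le A X B) (zr_le A X A) q)
    (LinearMap.ext fun x => by
      rw [LinearMap.comp_apply, Hinc_comp, Hinc_refl]; rfl)
    (LinearMap.ext fun x => by
      rw [LinearMap.comp_apply, Hinc_comp, Hinc_refl]; rfl)

/-- **The exact sequence of a triple**, in the middle. -/
theorem tri_ex {X A B : Set E} (h : A ⊆ X) (h' : B ⊆ A) (q : ℕ) :
    Function.Exact (resR subset_rfl h' q : Hr (tr E) (on k) X A q →ₗ[k] Hr (tr E) (on k) X B q)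
      (resR h subset_rfl q : Hr (tr E) (on k) X B q →ₗ[k] Hr (tr E) (on k) A B q) := by
  have e := exact_mid (n := q) (Zr_anti (a := tr E) (χ := on k) (le_refl X) h)
    (Zr_anti (a := tr E) (χ := on k) (le_refl X) h')
  intro x
  have hx : (resR h subset_rfl q : Hr (tr E) (on k) X B q →ₗ[k] Hr (tr E) (on k) A B q) x =
      worldR k X A B q (Hinc le_rfl (Zr_anti (le_refl X) h) q x) := by
    obtain ⟨x, hx, rfl⟩ := H.exists_mk x
    rfl
  rw [hx, LinearEquiv.map_eq_zero_iff]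
  exact e x

variable {X A B : ℝ → Set E} (hX : MonoP X) (hA : MonoP A) (hB : MonoP B)
  (hAX : ∀ t, 0 < t → A t ⊆ X t) (hBA : ∀ t, 0 < t → B t ⊆ A t)

/-- The triple sequence of a family. -/
def triEx (q : ℕ) : Ex3 (pmP k hX hA q) (pmP k hX hB q) (pmP k hA hB q) where
  α t ht := resR subset_rfl (hBA t ht) q
  β t ht := resR (hAX t ht) subset_rfl q
  α_nat s t hs ht h x := by
    obtain ⟨x, hx, rfl⟩ := H.exists_mk x
    rfl
  β_nat s t hs ht h x := by
    obtain ⟨x, hx, rfl⟩ := H.exists_mk x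
    rfl
  ex t ht := tri_ex k (hAX t ht) (hBA t ht) q

/-- `H^q(A, A) = 0`. -/
theorem hr_self (q : ℕ) (A : Set E) (x : Hr (tr E) (on k) A A q) : x = 0 := by
  obtain ⟨x, hx, rfl⟩ := H.exists_mk x
  exact H.mk_eq_zero.2 (T_le_Bc _ _ _ hx.1)

end Tri

end Vale.Agent.P216.C313
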