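import Vale.Agent.P216.C313.HypInst
import Vale.Agent.P216.H140.StepA
import Vale.Agent.P216.H977C.Eta
import Vale.Agent.P216.C337.KSeq

/-!
# P216-C, block C12-MID: `η` is not exact, and the middle degrees

* `eta_ne`: `η` is not exact on `P a b t`, `t ≥ B`, for all fields;
* `MidEph M d h B`, `midEph`: `H^q(P a b (t + B)) → H^q(P a b t)` is zero for
  `0 < q < (h + 1) d - 2`, `q ≠ d - 1`.
-/

set_option linter.all false

open Set BoundedContinuousFunction

namespace Vale.Agent.P216.C313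

open Vale.Agent.P216.AS Vale.Agent.P216.H901 Vale.Agent.P216.H83 Vale.Agent.P216.H550
open Vale.Agent.P216.H456 Vale.Agent.P216.MV337 Vale.Agent.P216.H133C Vale.Agent.P216.PS
open Vale.Agent.P216.H140 Vale.Agent.P216.H456C
open Vale.Agent.P216.Sl (IsPi Nrm CocL ExL)
open Vale.Agent.P216.N929 (Coc Fine one1)

section

variable {k : Type} [Field k] {M : Type} [MetricSpace M] [CompactSpace M] {d h : ℕ}
  {C : CellDec M d h} {S : KSeq k C} {N : ℕ}

theorem nrm_const {α : Type} {f : List α → k} (hf : Nrm f) {l : List α} {p : α}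
    (hl : 2 ≤ l.length) (h : ∀ x ∈ l, x = p) : f l = 0 := by
  obtain ⟨x, y, l, rfl⟩ : ∃ x y l', l = x :: y :: l' := by
    rcases l with _ | ⟨x, _ | ⟨y, l⟩⟩
    · simp at hl
    · simp at hl
    · exact ⟨x, y, l, rfl⟩
  rw [h x (by simp), h y (by simp)]
  exact hf.dup _ _

/-- On the paths with a common track in front, `fAc S N 0` is `η`. -/
theorem fAc_front (hE : EtaP S N) (hd : 2 ≤ d) {D : Set M} {a b x : M} {T : M → ℝ → M} {m : ℕ}
    (hT : Tr D a (m : ℝ) T) (hx : x ∈ D) {t : ℝ} (ht : 0 ≤ t) {l : List (ℝ →ᵇ M)}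
    (hl : l.length = d) (hs : ∀ w ∈ l, w ∈ P a b t) :
    fAc S N 0 (l.map fun z => lback T m (x, z)) = eta N S.ξ l := by
  set G : (ℝ →ᵇ M) → ℝ →ᵇ M := fun z => lback T m (x, z) with hG
  have e1 : d - 1 + 1 = d := by omega
  have h1 : eta N S.ξ (l.map G) = eta N S.ξ l := by
    refine hE.front m (fun u => T x (m - (m - u))) G l (by omega) fun w hw => ⟨fun u _ hu => ?_,
      fun u hu => ?_⟩
    · rw [hG]
      show lback T m (x, w) u = _
      rw [lback_applyB (p := (x, w)) hT hx (hs w hw), lj_left hu]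
    · rw [hG]
      show lback T m (x, w) u = _
      rw [lback_applyB (p := (x, w)) hT hx (hs w hw), lj_right _ hu]
      show w 0 = T x (m - 0)
      rw [sub_zero, hT.right _ hx _ le_rfl, eq_left (hs w hw) le_rfl]
  have h2 : S.μ (0 + 1) ((l.map G).map evz) = 0 := by
    refine nrm_const (S.nμ _) (p := x) (by rw [List.length_map, List.length_map]; omega)
      fun y hy => ?_
    obtain ⟨w', hw', rfl⟩ := List.mem_map.1 hy
    obtain ⟨w, hw, rfl⟩ := List.mem_map.1 hw'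
    exact lback_zeroB (p := (x, w)) hT ht hx (hs w hw)
  have h3 : S.κ 0 (((l.map G).drop (d - 1)).map evz) = 1 := by
    rw [S.κ0]
    exact if_pos (by rw [List.length_map, List.length_drop, List.length_map]; omega)
  change eta N S.ξ ((l.map G).take (d - 1 + 1)) * S.κ 0 (((l.map G).drop (d - 1)).map evz) -
    (-1) ^ d * S.μ (0 + 1) ((l.map G).map evz) = _
  rw [h3, h2, e1, List.take_of_length_le (by rw [List.length_map, hl]), h1, mul_zero, sub_zero,
    mul_one]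

theorem inter_zero : C.D 0 ∩ C.L 0 = ∅ := by rw [C.L_zero, inter_empty]

theorem X_one (b : M) (t : ℝ) : Xf C b 1 t ⊆ ovr evz (fun t => PF b t) (C.D 0) t := by
  rintro w ⟨h1, h2⟩
  rw [C.L_succ, C.L_zero, empty_union] at h2
  exact ⟨h1, h2⟩

end

section

variable {M : Type} [MetricSpace M] [CompactSpace M] [SimplyConnectedSpace M] {d h : ℕ}

/-- **`η` is not exact.** -/
theorem eta_ne (C : CellDec M d h) (hd : 2 ≤ d) (hh : 1 ≤ h) {ρ : ℝ} (hρ : 0 < ρ)
    (hU : LS.UniqSeg M ρ) :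
    ∃ B : ℝ, 0 < B ∧ ∀ (k : Type) [Field k], (2 : k) ≠ 0 → ∀ (S : KSeq k C) (N : ℕ),
      1 / ((N : ℝ) + 1) < S.ε / 4 → ∀ (a b : M) (t : ℝ), B ≤ t →
        ¬ ExL (P a b t) (d - 1) (eta N S.ξ) := by
  obtain ⟨K, m, hK, hmK, hT, hY⟩ := exists_hyp C hd hρ hU H977C.etaOut C337.excL
  have hm : (0 : ℝ) ≤ m := Nat.cast_nonneg m
  refine ⟨K + m, by positivity, fun k _ h2 S N hN a b t ht hex => ?_⟩
  obtain ⟨Y, hYA⟩ := hY k h2 S N hN b
  have hE := etaP H977C.etaOut hd S hN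
  obtain ⟨T, hT⟩ := hT a 0 (Nat.zero_le h)
  have hn : 0 * (d - 1 + 1) + (d - 1) + 1 = d * (0 + 1) := by omega
  have hn' : 0 * (d - 1 + 1) + (d - 1) = d - 1 := by omega
  have hL1 : C.D 0 ⊆ C.L (0 + 1) := by rw [C.L_succ]; exact subset_union_right
  -- the class on the paths which start in the handle `0`
  have e1 : ExL (ovr evz (fun t => PF b t) (C.D 0) K) (0 * (d - 1 + 1) + (d - 1)) (fAc S N 0) := by
    refine stepA (C := (C.cellL (Nat.zero_le h) : Cell M (d * 0) _ _)) (C.closed 0) inter_zero hT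
      (s := t) (t := t + m) hK ht le_rfl ?_ ?_
    · exact coc_fAc hE hd (Nat.zero_le h) hn (fun w hw => hw.1) (fun w hw => hL1 hw.2)
    · rw [hn']
      obtain ⟨g, hg, ε, hε, h1⟩ := hex
      refine ⟨g, hg, ε, hε, fun l hl hs => ?_⟩
      rw [← h1 l hl hs]
      exact fAc_front hE hd hT ((C.cellL (Nat.zero_le h)).ψ_mem _ fun i => Fin.elim0 i) (by linarith)
        (by omega) hs.1
  have e2 := e1.mono (X_one (C := C) b K)
  have hc : CocR (Xf C b 1 K) ∅ (0 * (d - 1 + 1) + (d - 1)) (fAc S N 0) :=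
    (coc_fAc hE hd (Nat.zero_le h) hn (fun w hw => hw.1) (fun w hw => hw.2)).toR
  refine Y.A_ne (j := 0) (by omega) hK le_rfl ?_
  refine (hYA K hK hc).trans (clsR_eq_zero.2 ?_)
  obtain ⟨g, hg, h1⟩ := e2
  exact ⟨g, hg, by rw [hn', show d - 1 = d - 2 + 1 by omega]; exact vanL_empty, h1⟩

/-- **The middle degrees.** -/
def MidEph (M : Type) [MetricSpace M] (d h : ℕ) (B : ℝ) : Prop :=
  ∀ (k : Type) [Field k], (2 : k) ≠ 0 → ∀ (a b : M) (t : ℝ), 0 ≤ t →
    ∀ (hX : P a b t ⊆ P a b (t + B)) (q : ℕ), 0 < q → q + 2 < (h + 1) * d → q ≠ d - 1 →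
      ∀ z : B64.HU k (P a b (t + B)) q, B64.hres k hX q z = 0

/-- **The middle degrees.** -/
theorem midEph (C : CellDec M d h) (hd : 2 ≤ d) {ρ : ℝ} (hρ : 0 < ρ)
    (hU : LS.UniqSeg M ρ) (hR : RingOut M C) : ∃ B : ℝ, 0 ≤ B ∧ MidEph M d h B := by
  obtain ⟨K, m, hK, hmK, hT, hY⟩ := exists_hyp C hd hρ hU H977C.etaOut C337.excL
  have hm : (0 : ℝ) ≤ m := Nat.cast_nonneg m
  have hcm := Lad.cm_nonneg h hK.le ((h + 1) * d)
  refine ⟨1 + (Lad.cm h K ((h + 1) * d) + 2 * m), by positivity,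
    fun k _ h2 a b t ht hX q hq hq2 hqd z => ?_⟩
  obtain ⟨S⟩ := C337.kSeqOut M d h C (by omega) hR k h2
  obtain ⟨N, hN⟩ := exists_nat_one_div_lt (show 0 < S.ε / 4 by have := S.hε; positivity)
  obtain ⟨Y, -⟩ := hY k h2 S N hN b
  obtain ⟨T, hT⟩ := hT a 0 (Nat.zero_le h)
  have hS : TrivC C a b m 0 := cellPF b (C.cellL (Nat.zero_le h)) (C.closed 0) inter_subset_left hT
  have hdh : h * (d - 1 + 1) + (d - 1) + 1 = (h + 1) * d := by
    have e1 : d - 1 + 1 = d := by omega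
    rw [e1, Nat.add_assoc, e1]
    ring
  have e0 : ((lad C b k).H 0 q).Eph (Lad.cm h K ((h + 1) * d)) :=
    eph_mono (Lad.mid Y q hq hqd (by omega)) (Lad.cm_mono h hK.le (by omega))
  have e1 : (pmX k (mono_om a b) q).Eph (Lad.cm h K ((h + 1) * d) + 2 * m) :=
    (intlH h2 hm hS q).retr'.eph hm hcm e0
  have m1 : P a b (t + 1) ⊆ P a b (t + (1 + (Lad.cm h K ((h + 1) * d) + 2 * m))) :=
    P_mono (by linarith)
  have m2 : P a b t ⊆ P a b (t + 1) := P_mono (by linarith)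
  have e2 : absE k (P a b (t + 1)) q (res m1 q z) = 0 := by
    rw [← absE_nat]
    exact e1 (t + 1) (t + (1 + (Lad.cm h K ((h + 1) * d) + 2 * m))) (by linarith) (by linarith)
      (by linarith) _
  rw [LinearEquiv.map_eq_zero_iff] at e2
  have e3 : B64.hres k hX q z = res m2 q (res m1 q z) := (res_res m1 m2 z).symm
  rw [e3, e2, map_zero]

end

end Vale.Agent.P216.C313
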