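import Vale.Agent.P216.C313.LowMain
import Vale.Agent.P216.H140.Ladder

/-!
# P216-C: the ladder of the path fibration over the handles

`lad C b k`: `H j q = H^q(paths to b which start in the handles 0, ..., j)`,
`R j q = H^q(E_(j+1), E_j)`.  `exists_ladG`: the geometric hypotheses `Lad.HypG`.
`intlH : Intl (H 0 q) (H^q(P a b t))`.
-/

set_option linter.all false

open Set BoundedContinuousFunction

namespace Vale.Agent.P216.C313

open Vale.Agent.P216.AS Vale.Agent.P216.H901 Vale.Agent.P216.H83 Vale.Agent.P216.H550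
open Vale.Agent.P216.H456 Vale.Agent.P216.MV337 Vale.Agent.P216.H133C Vale.Agent.P216.PS
open Vale.Agent.P216.H140
open Vale.Agent.P216.Sl (IsPi)

variable {M : Type} [MetricSpace M] [CompactSpace M] {d h : ℕ} (C : CellDec M d h) (a b : M)

/-- **The ladder.** -/
noncomputable def lad (k : Type) [Field k] : Lad k where
  H j q := pmX k (mono_X C b (j + 1)) q
  R j q := pmP k (mono_X C b (j + 2)) (mono_X C b (j + 1)) q
  α j q := fA k (mono_X C b (j + 2)) (mono_X C b (j + 1)) q
  β j q := fB k (mono_X C b (j + 2)) (mono_X C b (j + 1)) (fun t _ => X_le C b (Nat.le_succ _) t) q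
  δ j q := fD k (mono_X C b (j + 2)) (mono_X C b (j + 1)) q
  α_nat j q := fA_nat k (mono_X C b (j + 2)) (mono_X C b (j + 1)) q
  β_nat j q := fB_nat k (mono_X C b (j + 2)) (mono_X C b (j + 1))
    (fun t _ => X_le C b (Nat.le_succ _) t) q
  δ_nat j q := fD_nat k (mono_X C b (j + 2)) (mono_X C b (j + 1)) q
  ex1 j q := f_ex1 k (mono_X C b (j + 2)) (mono_X C b (j + 1))
    (fun t _ => X_le C b (Nat.le_succ _) t) q
  ex2 j q := f_ex2 k (mono_X C b (j + 2)) (mono_X C b (j + 1))
    (fun t _ => X_le C b (Nat.le_succ _) t) q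
  ex3 j q := f_ex3 k (mono_X C b (j + 2)) (mono_X C b (j + 1))
    (fun t _ => X_le C b (Nat.le_succ _) t) q

theorem rk1_iff {k : Type} [Field k] {A : PM k} {B : ℝ} : Rk1 A B ↔ A.Dep B := by
  constructor
  · intro h s t hs hst h1 x y
    obtain ⟨u, v, huv, e⟩ := h s t hs hst h1 x y
    exact ⟨u, v, huv, by rw [map_add, map_smul, map_smul]; exact e⟩
  · intro h s t hs hst h1 x y
    obtain ⟨u, v, huv, e⟩ := h s t hs hst h1 x y
    exact ⟨u, v, huv, by rw [map_add, map_smul, map_smul] at e; exact e⟩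

variable {C a b} {c : ℝ} {k : Type} [Field k]

/-- The paths which start in the handle `0`. -/
noncomputable def intlH (h2 : (2 : k) ≠ 0) (hc : 0 ≤ c) (S : TrivC C a b c 0) (q : ℕ) :
    Intl ((lad C b k).H 0 q) (pmX k (mono_om a b) q) c :=
  PMIso.intl (isoCongr (mono_X C b 1) monoP_empty (mono_X C b (0 + 1)) (mono_X C b 0)
    (fun _ => rfl) (fun t => (X_zero C b t).symm) q) (isoRefl _) hc (relI' h2 hc S q)

/-- The handle `j + 1`. -/
noncomputable def intlR (h2 : (2 : k) ≠ 0) (hc : 0 ≤ c) {j : ℕ} (S : TrivC C a b c (j + 1))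
    (q : ℕ) : Intl ((lad C b k).R j (q + d * (j + 1))) (pmX k (mono_om a b) q) c :=
  relI' h2 hc S q

theorem acyc_top {q : ℕ} (hq : 1 ≤ q) {K : ℝ} : ((lad C b k).H h q).Eph K := by
  intro s t hs hst _ x
  have ht : 0 < t := hs.trans_le hst
  have e : Subsingleton (Ha (tr (ℝ →ᵇ M)) (on k) (Xf C b (h + 1) t) q) := by
    rw [X_top]
    exact PF_subsingleton k b ht.le hq
  have hx : x = 0 := by
    obtain ⟨y, rfl⟩ := (absE k (Xf C b (h + 1) t) q).surjective x
    rw [Subsingleton.elim y 0]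
    exact map_zero _
  rw [hx, map_zero]

/-- **The geometric hypotheses of the ladder.** -/
theorem ladG (h2 : (2 : k) ≠ 0) (hc : 0 ≤ c) {D : ℝ} (hD : IsPi M D)
    (S : ∀ j, j ≤ h → TrivC C a b c j) {e : ℕ} (he : 1 ≤ e) (hde : d = e + 1) :
    (lad C b k).HypG h e (D + 4 * c) := by
  have hD0 := hD.nonneg
  refine ⟨by positivity, he, fun q hq => acyc_top hq, fun j q hj hq => ?_,
    fun j q r c' hj hr hc' hH => ?_, fun j q r c' hj hr hc' hH => ?_, ?_⟩
  · refine (rel_eph (k := k) h2 hc (S (j + 1) (by omega)) ?_).mono (by linarith)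
    rw [hde, Nat.mul_comm]
    exact hq
  · obtain rfl : r = q + d * (j + 1) := by rw [hr, hde]; ring
    have e1 := (intlH h2 hc (S 0 (Nat.zero_le _)) q).retr'.eph hc hc' hH
    exact ((intlR h2 hc (S (j + 1) (by omega)) q).retr.eph hc (by positivity) e1).mono (by linarith)
  · obtain rfl : r = q + d * (j + 1) := by rw [hr, hde]; ring
    have e1 := (intlH h2 hc (S 0 (Nat.zero_le _)) q).retr'.dep hc hc' (rk1_iff.1 hH)
    exact rk1_iff.2 (((intlR h2 hc (S (j + 1) (by omega)) q).retr.dep hc (by positivity) e1).mono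
      (by linarith))
  · exact rk1_iff.2 (((intlH h2 hc (S 0 (Nat.zero_le _)) 0).retr.dep hc hD0 (dep0 hD)).mono
      (by linarith))

/-- **The geometric hypotheses of the ladder**, uniformly in the field and the end point; `c` is
also the shift of the trivialisations. -/
theorem exists_ladG [SimplyConnectedSpace M] (C : CellDec M d h) {e : ℕ} (he : 1 ≤ e)
    (hde : d = e + 1) {ρ : ℝ} (hρ : 0 < ρ) (hU : LS.UniqSeg M ρ) :
    ∃ K c D, 0 ≤ K ∧ 0 ≤ c ∧ IsPi M D ∧ (∀ (a b : M) (j : ℕ), j ≤ h → Nonempty (TrivC C a b c j)) ∧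
      ∀ (k : Type) [Field k], (2 : k) ≠ 0 → ∀ b : M, (lad C b k).HypG h e K := by
  obtain ⟨D, hD⟩ := exists_isPi hρ hU
  obtain ⟨c, hc, S⟩ := exists_trivC C hρ hU hD
  have hD0 := hD.nonneg
  exact ⟨D + 4 * c, c, D, by positivity, hc, hD, S, fun k _ h2 b =>
    ladG h2 hc hD (fun j hj => (S b b j hj).some) he hde⟩

end Vale.Agent.P216.C313
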