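import Vale.Agent.P216.H140.MidDefs
import Vale.Agent.P216.C313.LadInst
import Vale.Agent.P216.C313.CellRel

/-!
# P216-C, block C12-MID: the classes `A j` and `B j` of the ladder

`fAc S N j = η ∪ κ j (w 0) - (-1)^d μ (j + 1) (w 0)`, of degree `d (j + 1) - 1`, a cocycle on the
paths which start in `L (j + 1)`, zero on the small lists of the paths which start in `L j`;
`dl (fAc S N j) = (-1)^d κ (j + 1) (w 0)`.
-/

set_option linter.all false

open Set BoundedContinuousFunction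

namespace Vale.Agent.P216.C313

open Vale.Agent.P216.AS Vale.Agent.P216.H901 Vale.Agent.P216.H83 Vale.Agent.P216.H550
open Vale.Agent.P216.H456 Vale.Agent.P216.MV337 Vale.Agent.P216.H133C Vale.Agent.P216.PS
open Vale.Agent.P216.H140 Vale.Agent.P216.H456C
open Vale.Agent.P216.Sl (IsPi Nrm CocL ExL)
open Vale.Agent.P216.N929 (Coc Fine one1)

variable {k : Type} [Field k] {M : Type} [MetricSpace M] [CompactSpace M] {d h : ℕ}
  {C : CellDec M d h}

/-- The properties of `η`, for one sequence. -/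
structure EtaP (S : KSeq k C) (N : ℕ) : Prop where
  nrm : Nrm (eta N S.ξ)
  dl : ∀ (b : M) (T : ℝ) (l : List (ℝ →ᵇ M)), l.length = d + 1 → Fine (PF b T) (S.ε / 4) l →
    Sl.dl (eta N S.ξ) l = (-1) ^ d * S.ξ (l.map evz)
  coc : ∀ (a b : M) (T : ℝ), Coc (P a b T) (S.ε / 4) (d - 1) (eta N S.ξ)
  front : ∀ (m : ℕ) (c : ℝ → M) (G : (ℝ →ᵇ M) → ℝ →ᵇ M) (l : List (ℝ →ᵇ M)), 2 ≤ l.length →
    (∀ w ∈ l, (∀ u : ℝ, 0 ≤ u → u ≤ m → G w u = c u) ∧ ∀ u : ℝ, m ≤ u → G w u = w (u - m)) →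
    eta N S.ξ (l.map G) = eta N S.ξ l

theorem etaP (hE : EtaOut) (hd : 2 ≤ d) (S : KSeq k C) {N : ℕ}
    (hN : 1 / ((N : ℝ) + 1) < S.ε / 4) : EtaP S N := by
  obtain ⟨h1, h2, h3, h4, -⟩ := hE k M d N S.ε S.ξ hd S.hε S.nξ S.cξ hN
  exact ⟨h1, h2, h3, h4⟩

/-- The cochain of `A j`. -/
noncomputable def fAc (S : KSeq k C) (N j : ℕ) : List (ℝ →ᵇ M) → k := fun l =>
  N929.cup (d - 1) (eta N S.ξ) (fun l => S.κ j (l.map evz)) l -
    (-1) ^ d * S.μ (j + 1) (l.map evz)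

theorem sml_evz {X : Set (ℝ →ᵇ M)} {L : Set M} {ε : ℝ} {l : List (ℝ →ᵇ M)} (h : SmL X ε l)
    (hX : ∀ w ∈ X, w 0 ∈ L) : SmL L ε (l.map evz) := by
  refine ⟨fun y hy => ?_, fun y hy y' hy' => ?_⟩
  · obtain ⟨x, hx, rfl⟩ := List.mem_map.1 hy
    exact hX x (h.1 x hx)
  · obtain ⟨x, hx, rfl⟩ := List.mem_map.1 hy
    obtain ⟨x', hx', rfl⟩ := List.mem_map.1 hy'
    exact (BoundedContinuousFunction.dist_coe_le_dist 0).trans_lt (h.2 x hx x' hx')

theorem sml_sub {E : Type} [PseudoMetricSpace E] {X : Set E} {ε : ℝ} {l l' : List E}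
    (h : SmL X ε l) (hl : ∀ x ∈ l', x ∈ l) : SmL X ε l' :=
  ⟨fun x hx => h.1 x (hl x hx), fun x hx y hy => h.2 x (hl x hx) y (hl y hy)⟩

variable {S : KSeq k C} {N : ℕ}

/-- `dl (fAc S N j) = (-1)^d κ (j + 1) (w 0)`. -/
theorem dl_fAc (hE : EtaP S N) (hd : 2 ≤ d) {j n : ℕ} (hn : n + 1 = d * (j + 1)) (b : M) (t : ℝ) :
    ∃ ε > 0, ∀ l, l.length = n + 2 → SmL (PF b t) ε l →
      Sl.dl (fAc S N j) l = (-1) ^ d * S.κ (j + 1) (l.map evz) := by
  obtain ⟨ε, hε, hκ⟩ := S.cκ j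
  have hdj : d * (j + 1) = d * j + d := by ring
  refine ⟨min (S.ε / 4) ε, lt_min (by have := S.hε; positivity) hε, fun l hl hs => ?_⟩
  have e : fAc S N j = fun l => N929.cup (d - 1) (eta N S.ξ) (fun l => S.κ j (l.map evz)) l +
      (-(-1) ^ d) * S.μ (j + 1) (l.map evz) := by
    funext l
    unfold fAc
    ring
  have h1 : Sl.dl (fun l => S.κ j (l.map evz)) (l.drop (d - 1)) = 0 := by
    rw [N929.dl_map]
    refine hκ _ (by rw [List.length_map, List.length_drop]; omega) ?_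
    exact sml_evz ((sml_sub hs fun x hx => List.mem_of_mem_drop hx).mono le_rfl (min_le_right _ _))
      fun _ _ => mem_univ _
  have h2 : Sl.dl (eta N S.ξ) (l.take (d + 1)) = (-1) ^ d * S.ξ ((l.take (d + 1)).map evz) := by
    refine hE.dl b t _ (by rw [List.length_take]; omega) ?_
    exact (sml_sub hs fun x hx => List.mem_of_mem_take hx).mono le_rfl (min_le_left _ _)
  have e1 : d - 1 + 1 = d := by omega
  have e2 : d - 1 + 2 = d + 1 := by omega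
  rw [e, N929.dl_add_fun, N929.dl_smul_fun, N929.dl_cup (d - 1) _ _ l (by omega), h1,
    N929.dl_map, mul_zero, mul_zero, add_zero, e2, e1, h2, S.κs]
  change _ = (-1) ^ d * (S.ξ ((l.map evz).take (d + 1)) * S.κ j ((l.map evz).drop d) - _)
  rw [← List.map_take, ← List.map_drop]
  ring

/-- `fAc S N j` vanishes on the small lists of the paths which start in `L j`. -/
theorem van_fAc (hd : 2 ≤ d) {j n : ℕ} (hj : j ≤ h) (hn : n + 1 = d * (j + 1)) {X : Set (ℝ →ᵇ M)}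
    (hX : ∀ w ∈ X, w 0 ∈ C.L j) : VanL X (n + 1) (fAc S N j) := by
  obtain ⟨ε, hε, hκ⟩ := S.vκ j hj
  obtain ⟨ε', hε', hμ⟩ := S.vμ j hj
  have hdj : d * (j + 1) = d * j + d := by ring
  refine ⟨min ε ε', lt_min hε hε', fun l hl hs => ?_⟩
  have h1 : S.κ j ((l.drop (d - 1)).map evz) = 0 := by
    refine hκ _ (by rw [List.length_map, List.length_drop]; omega) ?_
    exact sml_evz ((sml_sub hs fun x hx => List.mem_of_mem_drop hx).mono le_rfl (min_le_left _ _)) hX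
  have h2 : S.μ (j + 1) (l.map evz) = 0 :=
    hμ _ (by rw [List.length_map]; omega) ((sml_evz hs hX).mono le_rfl (min_le_right _ _))
  change eta N S.ξ (l.take (d - 1 + 1)) * S.κ j ((l.drop (d - 1)).map evz) -
    (-1) ^ d * S.μ (j + 1) (l.map evz) = 0
  rw [h1, h2, mul_zero, mul_zero, sub_zero]

/-- `fAc S N j` is a cocycle on the paths which start in `L (j + 1)`. -/
theorem coc_fAc (hE : EtaP S N) (hd : 2 ≤ d) {j n : ℕ} (hj : j ≤ h) (hn : n + 1 = d * (j + 1))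
    {b : M} {t : ℝ} {X : Set (ℝ →ᵇ M)} (hX' : X ⊆ PF b t) (hX : ∀ w ∈ X, w 0 ∈ C.L (j + 1)) :
    CocL X n (fAc S N j) := by
  obtain ⟨ε, hε, h1⟩ := dl_fAc hE hd hn b t
  obtain ⟨ε', hε', h2⟩ := S.vs j hj
  refine ⟨min ε ε', lt_min hε hε', fun l hl hs => ?_⟩
  rw [h1 l hl (hs.mono hX' (min_le_left _ _)), h2 _ (by rw [List.length_map]; omega)
    ((sml_evz hs hX).mono le_rfl (min_le_right _ _)), mul_zero]

/-- The relative cocycle. -/
theorem cocR_fAc (hE : EtaP S N) (hd : 2 ≤ d) {j n : ℕ} (hj : j ≤ h) (hn : n + 1 = d * (j + 1))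
    {b : M} {t : ℝ} {X A : Set (ℝ →ᵇ M)} (hX' : X ⊆ PF b t) (hX : ∀ w ∈ X, w 0 ∈ C.L (j + 1))
    (hA : ∀ w ∈ A, w 0 ∈ C.L j) : CocR X A n (fAc S N j) :=
  ⟨coc_fAc hE hd hj hn hX' hX, van_fAc hd hj hn hA⟩

end Vale.Agent.P216.C313
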