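import Vale.Agent.P216.C313.HypCls

/-!
# P216-C, block C12-MID: the instance `Lad.Hyp` of the ladder

`exists_hyp`: the hypotheses of the ladder, with a constant which does not depend on the field;
`eta_ne`: the class `η` is not exact on `P a b t` for `t ≥ B`;
`midEph`: the middle degrees.
-/

set_option linter.all false

open Set BoundedContinuousFunction

namespace Vale.Agent.P216.C313

open Vale.Agent.P216.AS Vale.Agent.P216.H901 Vale.Agent.P216.H83 Vale.Agent.P216.H550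
open Vale.Agent.P216.H456 Vale.Agent.P216.MV337 Vale.Agent.P216.H133C Vale.Agent.P216.PS
open Vale.Agent.P216.H140 Vale.Agent.P216.H456C
open Vale.Agent.P216.Sl (IsPi Nrm CocL ExL)
open Vale.Agent.P216.N929 (Coc Fine one1)

variable {k : Type} [Field k] {M : Type} [MetricSpace M] [CompactSpace M] {d h : ℕ}
  {C : CellDec M d h}

/-- Natural number tracks. -/
theorem exists_trNat [PathConnectedSpace M] (C : CellDec M d h) {ρ D : ℝ} (hρ : 0 < ρ)
    (hU : LS.UniqSeg M ρ) (hD : IsPi M D) :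
    ∃ m : ℕ, ∀ (a : M) (j : ℕ), j ≤ h → ∃ T, Tr (C.D j) a (m : ℝ) T := by
  obtain ⟨ℓ, h0, hT⟩ := exists_trAll C hρ hU hD
  refine ⟨⌈ℓ⌉₊, fun a j hj => ?_⟩
  obtain ⟨T, hT⟩ := hT a j hj
  exact ⟨T, hT.le (Nat.le_ceil ℓ)⟩

/-! ### The classes of the ladder -/

variable {S : KSeq k C} {N : ℕ}

/-- The family `A j`. -/
noncomputable def famA (hE : EtaP S N) (hd : 2 ≤ d) (b : M) {j n : ℕ} (hj : j ≤ h)
    (hn : n + 1 = d * (j + 1)) : ((lad C b k).H j n).Fam where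
  z t _ := clsR (tr (ℝ →ᵇ M)) (on k) (X := Xf C b (j + 1) t) (fAc S N j)
    (coc_fAc hE hd hj hn (fun w hw => hw.1) (fun w hw => hw.2)).toR
  comp s t hs hst := rfl

/-- The family `B j`. -/
noncomputable def famB (hE : EtaP S N) (hd : 2 ≤ d) (b : M) {j n : ℕ} (hj : j + 1 ≤ h)
    (hn : n + 1 = d * (j + 1 + 1)) : ((lad C b k).R j n).Fam where
  z t _ := clsR (tr (ℝ →ᵇ M)) (on k) (X := Xf C b (j + 2) t) (A := Xf C b (j + 1) t)
    (fAc S N (j + 1)) (cocR_fAc hE hd hj hn (fun w hw => hw.1) (fun w hw => hw.2) fun w hw => hw.2)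
  comp s t hs hst := rfl

/-- Zero. -/
def zfam (A : PM k) : A.Fam where
  z t _ := 0
  comp s t hs hst := map_zero _

theorem exR_congr {E : Type} [PseudoMetricSpace E] {X A : Set E} {n : ℕ} {f g : List E → k}
    (hf : ExR X A n f) {c : k} (hc : c ≠ 0)
    (he : ∃ ε > 0, ∀ l, l.length = n + 1 → SmL X ε l → f l = c * g l) : ExR X A n g := by
  obtain ⟨u, hu, hv, ε, hε, h1⟩ := hf
  obtain ⟨ε', hε', h2⟩ := he
  refine ⟨fun l => c⁻¹ * u l, fun h0 l => by show c⁻¹ * u l = 0; rw [hu h0, mul_zero], hv.smul c⁻¹, min ε ε',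
    lt_min hε hε', fun l hl hs => ?_⟩
  rw [N929.dl_smul_fun, ← h1 l hl (hs.mono le_rfl (min_le_left _ _)),
    h2 l hl (hs.mono le_rfl (min_le_right _ _)), ← mul_assoc, inv_mul_cancel₀ hc, one_mul]

theorem const_mem (b : M) : BoundedContinuousFunction.const ℝ b ∈ P b b (0 : ℝ) :=
  ⟨fun u v => by simp, fun u _ => rfl, fun u _ => rfl⟩

/-- The section over a handle. -/
noncomputable def sec (b : M) (m : ℝ) (T : M → ℝ → M) (x : M) : ℝ →ᵇ M :=
  lback T m (x, BoundedContinuousFunction.const ℝ b)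

theorem sec_mem {D : Set M} {b : M} {m : ℝ} {T : M → ℝ → M} (hT : Tr D b m T) {x : M} (hx : x ∈ D)
    {t : ℝ} (ht : m ≤ t) : sec b m T x ∈ PF b t := by
  have := lback_memB (p := (x, BoundedContinuousFunction.const ℝ b)) hT le_rfl hx (const_mem b)
  rw [zero_add] at this
  exact PF_mono ht (P_subset_PF this)

theorem sec_zero {D : Set M} {b : M} {m : ℝ} {T : M → ℝ → M} (hT : Tr D b m T) {x : M}
    (hx : x ∈ D) : evz (sec b m T x) = x :=
  lback_zeroB (p := (x, BoundedContinuousFunction.const ℝ b)) hT le_rfl hx (const_mem b)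

theorem sec_map {b : M} {m : ℝ} {T : M → ℝ → M} {j : ℕ} (hT : Tr (C.D j) b m T) {t : ℝ}
    (ht : m ≤ t) : IsMap (tr M) (tr (ℝ →ᵇ M)) (C.D j) (Xf C b (j + 1) t) (sec b m T) := by
  refine map_of_cont (C.closed j).isCompact ?_ fun x hx => ⟨sec_mem hT hx ht, ?_⟩
  · exact continuousOn_lback'B hT le_rfl continuousOn_id continuousOn_const (fun _ hs => hs)
      fun _ _ => const_mem b
  · show evz (sec b m T x) ∈ C.L (j + 1)
    rw [sec_zero hT hx, C.L_succ]
    exact Or.inr hx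

theorem map_evz_sec {D : Set M} {b : M} {m : ℝ} {T : M → ℝ → M} (hT : Tr D b m T) {l : List M}
    (hl : ∀ x ∈ l, x ∈ D) : (l.map (sec b m T)).map evz = l := by
  rw [List.map_map]
  conv_rhs => rw [← List.map_id l]
  exact List.map_congr_left fun x hx => sec_zero hT (hl x hx)

/-- **[K]** -/
theorem K_ne (hE : EtaP S N) (hX : ExcL) (h2 : (2 : k) ≠ 0) (hd : 2 ≤ d) {b : M} {m : ℝ} {j n : ℕ}
    (hj : j + 1 ≤ h) (hn : n + 1 = d * (j + 1)) {T : M → ℝ → M} (hT : Tr (C.D (j + 1)) b m T)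
    {t : ℝ} (ht : 0 < t) (hmt : m ≤ t) :
    (lad C b k).δ j n t ht ((famA hE hd b (by omega : j ≤ h) hn).z t ht) ≠ 0 := by
  intro h0
  have hc := coc_fAc (C := C) (X := Xf C b (j + 1) t) hE hd (by omega : j ≤ h) hn
    (fun w hw => hw.1) (fun w hw => hw.2)
  have e1 : lesD k (Xf C b (j + 2) t) (Xf C b (j + 1) t) n
      (clsR (tr (ℝ →ᵇ M)) (on k) (fAc S N j) hc.toR) = 0 := h0
  rw [lesD_clsR] at e1
  -- pull back by the section
  have hs := sec_map (C := C) hT hmt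
  have hDA : MapsTo (sec b m T) (C.D (j + 1) ∩ C.L (j + 1)) (Xf C b (j + 1) t) := fun x hx =>
    ⟨sec_mem hT hx.1 hmt, by
      show evz (sec b m T x) ∈ C.L (j + 1)
      rw [sec_zero hT hx.1]
      exact hx.2⟩
  have e2 := congrArg (pullR (on k) hs inter_subset_left hDA (n + 1)) e1
  rw [pullR_clsR, map_zero, clsR_eq_zero] at e2
  -- the cochain
  obtain ⟨ε, hε, h3⟩ := dl_fAc (C := C) hE hd hn b t
  obtain ⟨δ, hδ, h4⟩ := hs.uc ε hε
  have e3 : ExR (C.D (j + 1)) (C.D (j + 1) ∩ C.L (j + 1)) (n + 1) (S.κ (j + 1)) := by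
    refine exR_congr e2 (c := (-1) ^ d) (pow_ne_zero _ (neg_ne_zero.2 one_ne_zero)) ⟨δ, hδ,
      fun l hl hsm => ?_⟩
    rw [h3 _ (by rw [List.length_map, hl]) ?_, map_evz_sec hT fun x hx => hsm.1 x hx]
    refine ⟨fun y hy => ?_, fun y hy y' hy' => ?_⟩
    · obtain ⟨x, hx, rfl⟩ := List.mem_map.1 hy
      exact sec_mem hT (hsm.1 x hx) hmt
    · obtain ⟨x, hx, rfl⟩ := List.mem_map.1 hy
      obtain ⟨x', hx', rfl⟩ := List.mem_map.1 hy'
      exact h4 x (hsm.1 x hx) x' (hsm.1 x' hx') (hsm.2 x hx x' hx')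
  have e4 : CocR (C.L (j + 1 + 1)) (C.L (j + 1)) (n + 1) (S.κ (j + 1)) := by
    rw [hn]
    exact ⟨(S.cκ (j + 1)).mono (subset_univ _), S.vκ (j + 1) hj⟩
  have e5 := (hX M d h C k h2 (j + 1) hj (n + 1) _ e4 e3).exL
  rw [hn] at e5
  exact S.ne (j + 1) hj e5

/-- **The instance.** -/
noncomputable def hyp (hE : EtaP S N) (hX : ExcL) (h2 : (2 : k) ≠ 0) {e : ℕ} (he : 1 ≤ e)
    (hde : d = e + 1) {b : M} {m K : ℝ} (hG : (lad C b k).HypG h e K) (hmK : m ≤ K)
    (hT : ∀ j, j ≤ h → ∃ T, Tr (C.D j) b m T) : (lad C b k).Hyp h e K where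
  toHypG := hG
  A j := if hj : j ≤ h then famA (n := j * (e + 1) + e) hE (by omega) b hj (by rw [hde]; ring)
    else zfam _
  B j := if hj : j + 1 ≤ h then famB (n := (j + 1) * (e + 1) + e) hE (by omega) b hj
    (by rw [hde]; ring) else zfam _
  αB j t ht hj := by
    rw [dif_pos (show j + 1 ≤ h by omega), dif_pos (show j + 1 ≤ h by omega)]
    rfl
  K j t ht hj hKt := by
    rw [dif_pos (show j ≤ h by omega)]
    obtain ⟨T, hT⟩ := hT (j + 1) (by omega)
    exact K_ne hE hX h2 (by omega) (by omega) _ hT ht (hmK.trans hKt)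

theorem hyp_A0 (hE : EtaP S N) (hX : ExcL) (h2 : (2 : k) ≠ 0) {e : ℕ} (he : 1 ≤ e)
    (hde : d = e + 1) {b : M} {m K : ℝ} (hG : (lad C b k).HypG h e K) (hmK : m ≤ K)
    (hT : ∀ j, j ≤ h → ∃ T, Tr (C.D j) b m T) (hn : 0 * (e + 1) + e + 1 = d * (0 + 1)) :
    (hyp hE hX h2 he hde hG hmK hT).A 0 =
      famA (n := 0 * (e + 1) + e) hE (by omega) b (Nat.zero_le h) hn := by
  unfold hyp
  simp only [Nat.zero_le, dif_pos]

/-- **The hypotheses of the ladder**, with one constant for all fields. -/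
theorem exists_hyp [SimplyConnectedSpace M] (C : CellDec M d h) (hd : 2 ≤ d) {ρ : ℝ} (hρ : 0 < ρ)
    (hU : LS.UniqSeg M ρ) (hE : EtaOut) (hX : ExcL) :
    ∃ (K : ℝ) (m : ℕ), 0 < K ∧ (m : ℝ) ≤ K ∧
      (∀ (a : M) (j : ℕ), j ≤ h → ∃ T, Tr (C.D j) a (m : ℝ) T) ∧
      ∀ (k : Type) [Field k], (2 : k) ≠ 0 → ∀ (S : KSeq k C) (N : ℕ),
        1 / ((N : ℝ) + 1) < S.ε / 4 → ∀ b : M, ∃ Y : (lad C b k).Hyp h (d - 1) K,
        ∀ t ht (hc : CocR (Xf C b 1 t) ∅ (0 * (d - 1 + 1) + (d - 1)) (fAc S N 0)),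
          (Y.A 0).z t ht = clsR (tr (ℝ →ᵇ M)) (on k) (fAc S N 0) hc := by
  obtain ⟨D, hD⟩ := exists_isPi hρ hU
  obtain ⟨m, hT⟩ := exists_trNat C hρ hU hD
  have hD0 := hD.nonneg
  have hm : (0 : ℝ) ≤ m := Nat.cast_nonneg m
  refine ⟨D + 4 * m + 1, m, by positivity, by linarith, hT, fun k _ h2 S N hN b => ?_⟩
  have hde : d = d - 1 + 1 := by omega
  have hG : (lad C b k).HypG h (d - 1) (D + 4 * m + 1) := by
    have g := ladG (C := C) (a := b) (b := b) (e := d - 1) h2 hm hD (fun j hj =>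
      (show Nonempty (TrivC C b b m j) from by
        obtain ⟨T, hT⟩ := hT b j hj
        exact ⟨cellPF b (C.cellL hj) (C.closed j) inter_subset_left hT⟩).some) (by omega) hde
    exact ⟨by positivity, g.e1, fun q hq => eph_mono (g.acyc q hq) (by linarith),
      fun j q hj hq => eph_mono (g.low j q hj hq) (by linarith),
      fun j q r c hj hr hc hH => eph_mono (g.tr j q r c hj hr hc hH) (by linarith),
      fun j q r c hj hr hc hH => (g.tr1 j q r c hj hr hc hH).mono (by linarith),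
      g.rk.mono (by linarith)⟩
  refine ⟨hyp (etaP hE hd S hN) hX h2 (by omega) hde hG (by linarith) (fun j hj => hT b j hj),
    fun t ht hc => ?_⟩
  rw [hyp_A0 _ hX h2 (by omega) hde hG _ _ (by omega)]
  rfl

end Vale.Agent.P216.C313
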