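import Vale.Agent.P216.C313.Dep
import Vale.Agent.P216.H550.LinSp
import Vale.Agent.P216.H901.W3
import Vale.Agent.P216.H456.PCon
import Vale.Agent.P216.H133C.Cell
import Vale.Agent.P216.H787.Omega

/-!
# P216-C, block C04 (LOW): the path spaces in the degrees `≤ d - 1`

`M` with a decomposition into handles of the indices `d j`, `j ≤ h`.  Paths to `b` with free
start point: `PF b t`, contractible in itself.  `LowC M (d - 1) B`: in the degrees
`0 < j < d - 1` the restriction `P a b t ⊆ P a b (t + B)` is zero, in the degree `d - 1` any two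
classes become dependent.
-/

set_option linter.all false

open Set BoundedContinuousFunction

namespace Vale.Agent.P216.C313

open Vale.Agent.P216.AS Vale.Agent.P216.H901 Vale.Agent.P216.H83 Vale.Agent.P216.H550
open Vale.Agent.P216.H456 Vale.Agent.P216.MV337 Vale.Agent.P216.H133C Vale.Agent.P216.PS
open Vale.Agent.P216.Sl (IsPi)

/-- **LOW**. -/
def LowC (M : Type) [MetricSpace M] (q : ℕ) (B : ℝ) : Prop :=
  ∀ (k : Type) [Field k], (2 : k) ≠ 0 → ∀ (a b : M) (t : ℝ), 0 ≤ t →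
    ∀ (h : P a b t ⊆ P a b (t + B)) (j : ℕ), 0 < j → j ≤ q →
      (∀ z z' : B64.HU k (P a b (t + B)) j, ∃ c c' : k, (c ≠ 0 ∨ c' ≠ 0) ∧
        B64.hres k h j (c • z + c' • z') = 0) ∧
      (j < q → ∀ z : B64.HU k (P a b (t + B)) j, B64.hres k h j z = 0)

section Gen

variable {E : Type} [PseudoMetricSpace E] {k : Type} [Field k]

/-- Replacing the sets by equal sets. -/
noncomputable def eqE (k : Type) [Field k] {X A X' A' : Set E} (e : X = X') (e' : A = A') (q : ℕ) :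
    Hr (tr E) (on k) X A q ≃ₗ[k] Hr (tr E) (on k) X' A' q :=
  LinearEquiv.ofLinear (resR e.ge e'.ge q) (resR e.le e'.le q)
    (LinearMap.ext fun x => by
      rw [LinearMap.comp_apply, resR_resR]
      exact Hinc_refl _ _ x)
    (LinearMap.ext fun x => by
      rw [LinearMap.comp_apply, resR_resR]
      exact Hinc_refl _ _ x)

/-- Replacing the families by equal families. -/
noncomputable def isoCongr {A B A' B' : ℝ → Set E} (hA : MonoP A) (hB : MonoP B) (hA' : MonoP A')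
    (hB' : MonoP B') (e : ∀ t, A t = A' t) (e' : ∀ t, B t = B' t) (q : ℕ) :
    PMIso (hrPM k A B hA hB q) (hrPM k A' B' hA' hB' q) where
  e t ht := eqE k (e t) (e' t) q
  nat s t hs ht h x := by
    obtain ⟨x, hx, rfl⟩ := H.exists_mk x
    rfl

end Gen

/-! ### The filtration -/

section Filt

variable {M : Type} [MetricSpace M] [CompactSpace M] {d h : ℕ} (C : CellDec M d h) (a b : M)

/-- Paths to `b` which start in the first `j` handles. -/
abbrev Xf (j : ℕ) : ℝ → Set (ℝ →ᵇ M) := ovr evz (fun t => PF b t) (C.L j)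

/-- Paths to `b` which start in the handle `j`. -/
abbrev Yf (j : ℕ) : ℝ → Set (ℝ →ᵇ M) := ovr evz (fun t => PF b t) (C.D j)

theorem mono_PF : MonoP fun t => PF b t := fun s t _ h => PF_mono h

theorem mono_X (j : ℕ) : MonoP (Xf C b j) := fun s t hs h =>
  ovr_mono (mono_PF b s t hs h) subset_rfl

theorem mono_Y (j : ℕ) : MonoP (Yf C b j) := fun s t hs h =>
  ovr_mono (mono_PF b s t hs h) subset_rfl

theorem mono_om : MonoP fun t => P a b t := fun s t _ h => P_mono h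

theorem X_le {i j : ℕ} (hij : i ≤ j) (t : ℝ) : Xf C b i t ⊆ Xf C b j t :=
  ovr_mono subset_rfl (C.L_mono hij)

theorem X_zero (t : ℝ) : Xf C b 0 t = ∅ := by
  ext w
  constructor
  · rintro ⟨_, h⟩
    rw [C.L_zero] at h
    exact h
  · exact fun h => absurd h (notMem_empty _)

theorem X_succ (j : ℕ) (t : ℝ) : Xf C b (j + 1) t = Xf C b j t ∪ Yf C b j t := by
  ext w
  show w ∈ PF b t ∧ evz w ∈ C.L (j + 1) ↔ _
  rw [C.L_succ]
  constructor
  · rintro ⟨h1, h2 | h2⟩
    · exact Or.inl ⟨h1, h2⟩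
    · exact Or.inr ⟨h1, h2⟩
  · rintro (⟨h1, h2⟩ | ⟨h1, h2⟩)
    · exact ⟨h1, Or.inl h2⟩
    · exact ⟨h1, Or.inr h2⟩

theorem X_top (t : ℝ) : Xf C b (h + 1) t = PF b t := by
  ext w
  constructor
  · exact fun h => h.1
  · exact fun h => ⟨h, by rw [C.L_top]; exact mem_univ _⟩

theorem XY_int (j : ℕ) (t : ℝ) :
    ovr evz (fun t => PF b t) (C.D j ∩ C.L j) t = Xf C b j t ∩ Yf C b j t := by
  ext w
  exact ⟨fun h => ⟨⟨h.1, h.2.2⟩, h.1, h.2.1⟩, fun h => ⟨h.1.1, h.2.2, h.1.2⟩⟩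

theorem ev_cont : Continuous (evz (M := M)) := by unfold evz; fun_prop

theorem cX (j : ℕ) (t : ℝ) (ht : 0 < t) : IsCompact (Xf C b j t) :=
  ovr_compact ev_cont (C.isClosed_L j) (isCompact_PF b ht.le)

theorem cY (j : ℕ) (t : ℝ) (ht : 0 < t) : IsCompact (Yf C b j t) :=
  ovr_compact ev_cont (C.closed j) (isCompact_PF b ht.le)

/-- The trivialisation over the handle `j`. -/
abbrev TrivC (c : ℝ) (j : ℕ) : Type :=
  SpIntl (Yf C b j) (ovr evz (fun t => PF b t) (C.D j ∩ C.L j)) (fun t => cub (d * j) (P a b t))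
    (fun t => bdc (d * j) (P a b t)) c

variable {C a b} {c : ℝ} {k : Type} [Field k]

/-- The relative module of the handle `j`. -/
noncomputable def relI (h2 : (2 : k) ≠ 0) (hc : 0 ≤ c) {j : ℕ} (S : TrivC C a b c j) (q : ℕ) :
    Intl (pmP k (mono_X C b (j + 1)) (mono_X C b j) q)
      (PMr k (fun t => cub (d * j) (P a b t)) (fun t => bdc (d * j) (P a b t))
        (mono_cub (d * j) (mono_om a b)) (mono_bdc (d * j) (mono_om a b)) q) c := by
  have mU : MonoP fun t => Xf C b j t ∪ Yf C b j t := fun s t hs hst =>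
    union_subset_union (mono_X C b j s t hs hst) (mono_Y C b j s t hs hst)
  have mI : MonoP fun t => Xf C b j t ∩ Yf C b j t := fun s t hs hst =>
    inter_subset_inter (mono_X C b j s t hs hst) (mono_Y C b j s t hs hst)
  have mI' : MonoP (ovr evz (fun t => PF b t) (C.D j ∩ C.L j)) := fun s t hs h =>
    ovr_mono (mono_PF b s t hs h) subset_rfl
  exact PMIso.intl
    (((isoCongr (mono_X C b (j + 1)) (mono_X C b j) mU (mono_X C b j) (X_succ C b j)
      (fun _ => rfl) q).trans (isoExcF h2 (cX C b j) (cY C b j) mI mU q)).trans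
      (isoCongr (mono_Y C b j) mI (mono_Y C b j) mI' (fun _ => rfl) (fun t => (XY_int C b j t).symm) q))
    (isoRefl _) hc
    (S.intl k (mono_Y C b j) mI' (mono_cub (d * j) (mono_om a b)) (mono_bdc (d * j) (mono_om a b))
      (fun t => ovr_mono subset_rfl inter_subset_left) (fun t => bdc_subset _ _) hc q)

theorem rel_eph (h2 : (2 : k) ≠ 0) (hc : 0 ≤ c) {j : ℕ} (S : TrivC C a b c j) {q : ℕ}
    (hq : q < d * j) : (pmP k (mono_X C b (j + 1)) (mono_X C b j) q).Eph (2 * c) := by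
  have h := (relI h2 hc S q).retr.eph (C := 0) hc le_rfl
    (fun s t hs hst _ x => cub_low h2 (P a b s) (d * j) q hq _)
  rwa [zero_add] at h

/-- In the degrees `q + d j`. -/
noncomputable def relI' (h2 : (2 : k) ≠ 0) (hc : 0 ≤ c) {j : ℕ} (S : TrivC C a b c j) (q : ℕ) :
    Intl (pmP k (mono_X C b (j + 1)) (mono_X C b j) (q + d * j)) (pmX k (mono_om a b) q) c :=
  PMIso.intl (isoRefl _) (isoSus h2 (mono_om a b) (d * j) q).symm hc (relI h2 hc S (q + d * j))

theorem eph_congr {A B A' B' : ℝ → Set (ℝ →ᵇ M)} {hA : MonoP A} {hB : MonoP B} {hA' : MonoP A'}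
    {hB' : MonoP B'} (e : ∀ t, A t = A' t) (e' : ∀ t, B t = B' t) {q : ℕ} {K : ℝ}
    (h : (hrPM k A B hA hB q).Eph K) : (hrPM k A' B' hA' hB' q).Eph K := by
  obtain rfl : A = A' := funext e
  obtain rfl : B = B' := funext e'
  exact h

theorem dep_congr {A B A' B' : ℝ → Set (ℝ →ᵇ M)} {hA : MonoP A} {hB : MonoP B} {hA' : MonoP A'}
    {hB' : MonoP B'} (e : ∀ t, A t = A' t) (e' : ∀ t, B t = B' t) {q : ℕ} {K : ℝ}
    (h : (hrPM k A B hA hB q).Dep K) : (hrPM k A' B' hA' hB' q).Dep K := by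
  obtain rfl : A = A' := funext e
  obtain rfl : B = B' := funext e'
  exact h

/-- Degree `0`. -/
theorem dep0 {D : ℝ} (hD : IsPi M D) : (pmX k (mono_om a b) 0).Dep D := by
  intro s t hs hst h1
    (x : Hr (tr (ℝ →ᵇ M)) (on k) (P a b t) ∅ 0) (y : Hr (tr (ℝ →ᵇ M)) (on k) (P a b t) ∅ 0)
  have hg : Sl.CocL (P a b s) 0 (fun _ : List (ℝ →ᵇ M) => (1 : k)) := by
    refine ⟨1, one_pos, fun l hl _ => ?_⟩
    obtain ⟨v, w, rfl⟩ := List.length_eq_two.1 hl
    rw [Sl.dl_cons, Sl.dl_one]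
    exact sub_self _
  have key : ∀ z : Hr (tr (ℝ →ᵇ M)) (on k) (P a b t) ∅ 0, ∃ c : k,
      (resR (P_mono hst) subset_rfl 0 : Hr (tr (ℝ →ᵇ M)) (on k) (P a b t) ∅ 0 →ₗ[k]
        Hr (tr (ℝ →ᵇ M)) (on k) (P a b s) ∅ 0) z =
      c • absE k (P a b s) 0 (Sl.cls (tr (ℝ →ᵇ M)) (on k) (fun _ => (1 : k)) hg) := by
    intro z
    obtain ⟨z, rfl⟩ := (absE k (P a b t) 0).surjective z
    obtain ⟨c, hc⟩ := Sl.span_deg0 hD hs.le h1 (P_mono hst) rfl z hg (fun _ _ => rfl)
    exact ⟨c, by rw [absE_nat, hc, map_smul]⟩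
  obtain ⟨u, hu⟩ := key x
  obtain ⟨v, hv⟩ := key y
  by_cases hv0 : v = 0
  · refine ⟨0, 1, Or.inr one_ne_zero, ?_⟩
    change (resR (P_mono hst) subset_rfl 0 : Hr (tr (ℝ →ᵇ M)) (on k) (P a b t) ∅ 0 →ₗ[k]
      Hr (tr (ℝ →ᵇ M)) (on k) (P a b s) ∅ 0) ((0 : k) • x + (1 : k) • y) = 0
    rw [zero_smul, zero_add, one_smul, hv, hv0, zero_smul]
  · refine ⟨v, -u, Or.inl hv0, ?_⟩
    change (resR (P_mono hst) subset_rfl 0 : Hr (tr (ℝ →ᵇ M)) (on k) (P a b t) ∅ 0 →ₗ[k]
      Hr (tr (ℝ →ᵇ M)) (on k) (P a b s) ∅ 0) (v • x + (-u) • y) = 0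
    rw [map_add, map_smul, map_smul, hu, hv, smul_smul, smul_smul, neg_mul, neg_smul, mul_comm,
      add_neg_cancel]

/-- The first relative degree. -/
theorem rel_dep (h2 : (2 : k) ≠ 0) (hc : 0 ≤ c) {D : ℝ} (hD : IsPi M D) (S : TrivC C a b c 1)
    {q : ℕ} (hq : q = 0 + d * 1) :
    (pmP k (mono_X C b (1 + 1)) (mono_X C b 1) q).Dep (D + 2 * c) := by
  subst hq
  exact (relI' h2 hc S 0).retr.dep hc hD.nonneg (dep0 hD)

theorem chain (h2 : (2 : k) ≠ 0) (hc : 0 ≤ c) (hd : 1 ≤ d) {D : ℝ} (hD : IsPi M D)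
    (S : ∀ j, j ≤ h → TrivC C a b c j) : ∀ j, 1 ≤ j → j ≤ h + 1 →
    (∀ q, q < d → (pmP k (mono_X C b j) (mono_X C b 1) q).Eph (j * (D + 2 * c))) ∧
      (pmP k (mono_X C b j) (mono_X C b 1) d).Dep (j * (D + 2 * c)) := by
  have hD0 := hD.nonneg
  have hK : 0 ≤ D + 2 * c := by linarith
  have z1 : ∀ q K, (pmP k (mono_X C b 1) (mono_X C b 1) q).Eph K := fun q K s t hs hst _ x =>
    hr_self k q _ _
  intro j hj
  induction j, hj using Nat.le_induction with
  | base => exact fun _ => ⟨fun q _ => z1 q _, (z1 d _).dep⟩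
  | succ j hj ih =>
    intro hjh
    obtain ⟨i1, i2⟩ := ih (by omega)
    have hjK : 0 ≤ (j : ℝ) * (D + 2 * c) := by positivity
    have e : ∀ q, Ex3 (pmP k (mono_X C b (j + 1)) (mono_X C b j) q)
        (pmP k (mono_X C b (j + 1)) (mono_X C b 1) q) (pmP k (mono_X C b j) (mono_X C b 1) q) :=
      fun q => triEx k (mono_X C b (j + 1)) (mono_X C b j) (mono_X C b 1)
        (fun t _ => X_le C b (Nat.le_succ j) t) (fun t _ => X_le C b hj t) q
    have hS := S j (by omega)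
    refine ⟨fun q hq => ?_, ?_⟩
    · have hq' : q < d * j := hq.trans_le (Nat.le_mul_of_pos_right d hj)
      refine ((e q).eph (by positivity) hjK (rel_eph h2 hc hS hq') (i1 q hq)).mono ?_
      push_cast
      linarith
    · rcases hj.eq_or_lt with rfl | hj'
      · refine ((e d).dep_left hK hjK (rel_dep h2 hc hD hS (by omega)) (z1 d _)).mono ?_
        push_cast
        linarith
      · have hq' : d < d * j := by
          calc d < d * 2 := by omega
            _ ≤ d * j := Nat.mul_le_mul_left d hj'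
        refine ((e d).dep_right (by positivity) hjK (rel_eph h2 hc hS hq') i2).mono ?_
        push_cast
        linarith

/-- The connecting map of `(X (h + 1), X 1)`. -/
noncomputable def dHom (C : CellDec M d h) (b : M) (k : Type) [Field k] (q : ℕ) :
    PM.Hom (pmQ k (mono_X C b 1) q) (pmP k (mono_X C b (h + 1)) (mono_X C b 1) (q + 1)) :=
  ⟨fD k (mono_X C b (h + 1)) (mono_X C b 1) q, fD_nat k (mono_X C b (h + 1)) (mono_X C b 1) q⟩

theorem dHom_inj {q : ℕ} (hq : 1 ≤ q) : (dHom C b k q).Inj 0 := by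
  intro s t hs ht hst _ x hx
  obtain ⟨y, rfl⟩ := (f_ex2 k (mono_X C b (h + 1)) (mono_X C b 1)
    (fun t _ => X_le C b (by omega) t) q t ht x).1 hx
  have hy : y = 0 := by
    have hs : Subsingleton (Ha (tr (ℝ →ᵇ M)) (on k) (Xf C b (h + 1) t) q) := by
      rw [X_top]
      exact PF_subsingleton k b ht.le hq
    obtain ⟨y, rfl⟩ := (absE k (Xf C b (h + 1) t) q).surjective y
    rw [Subsingleton.elim y 0]
    exact map_zero _
  rw [hy, map_zero, map_zero]

/-- **LOW**, for persistence modules. -/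
theorem low_pm (h2 : (2 : k) ≠ 0) (hc : 0 ≤ c) (hd : 1 ≤ d) {D : ℝ} (hD : IsPi M D)
    (S : ∀ j, j ≤ h → TrivC C a b c j) {q : ℕ} (hq : 0 < q) :
    (q + 1 < d → (pmX k (mono_om a b) q).Eph ((h + 1) * (D + 2 * c) + 2 * c)) ∧
      (q + 1 = d → (pmX k (mono_om a b) q).Dep ((h + 1) * (D + 2 * c) + 2 * c)) := by
  have hD0 := hD.nonneg
  have hK : 0 ≤ ((h : ℝ) + 1) * (D + 2 * c) := by positivity
  obtain ⟨i1, i2⟩ := chain h2 hc hd hD S (h + 1) (by omega) le_rfl
  have r0 := (relI' h2 hc (S 0 (Nat.zero_le _)) q).retr'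
  push_cast at i1 i2
  constructor
  · intro hqd
    have e1 := (dHom_inj (C := C) (b := b) (k := k) hq).eph (i1 (q + 1) hqd) le_rfl hK
    rw [zero_add] at e1
    exact r0.eph hc hK (eph_congr (fun _ => rfl) (fun t => (X_zero C b t).symm) e1)
  · intro hqd
    subst hqd
    have e1 := (dHom_inj (C := C) (b := b) (k := k) hq).dep i2 le_rfl hK
    rw [zero_add] at e1
    exact r0.dep hc hK (dep_congr (fun _ => rfl) (fun t => (X_zero C b t).symm) e1)

end Filt

/-- **LOW.** -/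
theorem lowC_of {M : Type} [MetricSpace M] [CompactSpace M] {d h : ℕ} (C : CellDec M d h)
    (hd : 1 ≤ d) {c D : ℝ} (hc : 0 ≤ c) (hD : IsPi M D)
    (S : ∀ a b : M, ∀ j, j ≤ h → Nonempty (TrivC C a b c j)) :
    LowC M (d - 1) (1 + ((h + 1) * (D + 2 * c) + 2 * c)) := by
  intro k _ h2 a b t ht hX j hj hjq
  set K : ℝ := (h + 1) * (D + 2 * c) + 2 * c with hK
  have hD0 := hD.nonneg
  have hK0 : 0 ≤ K := by positivity
  obtain ⟨L1, L2⟩ := low_pm (k := k) h2 hc hd hD (fun j hj => (S a b j hj).some) hj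
  have m1 : P a b (t + 1) ⊆ P a b (t + (1 + K)) := P_mono (by linarith)
  have m2 : P a b t ⊆ P a b (t + 1) := P_mono (by linarith)
  -- transport to the absolute groups
  have key : ∀ z : B64.HU k (P a b (t + (1 + K))) j,
      (pmX k (mono_om a b) j).ρ (t + 1) (t + (1 + K)) (by linarith) (by linarith)
        (absE k (P a b (t + (1 + K))) j z) = 0 → B64.hres k hX j z = 0 := by
    intro z hz
    have e1 : absE k (P a b (t + 1)) j (res m1 j z) = 0 := by
      rw [← absE_nat]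
      exact hz
    rw [LinearEquiv.map_eq_zero_iff] at e1
    have e2 : B64.hres k hX j z = res m2 j (res m1 j z) := (res_res m1 m2 z).symm
    rw [e2, e1, map_zero]
  rcases (Nat.lt_or_ge (j + 1) d) with hlt | hge
  · have e0 : ∀ z : B64.HU k (P a b (t + (1 + K))) j, B64.hres k hX j z = 0 := fun z =>
      key z (L1 hlt _ _ _ _ (by linarith) _)
    exact ⟨fun z z' => ⟨1, 0, Or.inl one_ne_zero, e0 _⟩, fun _ => e0⟩
  · have hjd : j + 1 = d := by omega
    refine ⟨fun z z' => ?_, fun hlt => absurd hlt (by omega)⟩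
    obtain ⟨u, v, huv, e⟩ := L2 hjd (t + 1) (t + (1 + K)) (by linarith) (by linarith) (by linarith)
      (absE k (P a b (t + (1 + K))) j z) (absE k (P a b (t + (1 + K))) j z')
    refine ⟨u, v, huv, key _ ?_⟩
    rw [map_add, map_smul, map_smul]
    exact e

end Vale.Agent.P216.C313
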